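import Vale.Agent.N193T.Main

/-!
# P193: finitely presented simple overgroups with property (T), uniformly simple
-/

namespace Vale.Agent.Results.P193.A0Kazhdan

open Vale.Agent.N192T Vale.Agent.N193T

universe u v

/-- A finitely generated group with decidable word problem embeds in an infinite finitely presented
simple group `K` which has property (T), fixes a point in every isometric action on a real Hilbert
space, has property FW, fixes a vertex in every action on a tree, in which every element is a
product of at most 7 conjugates of one element of order 2, and every element is a product of at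
most 14 conjugates of `g` and `g⁻¹` for every `g ≠ 1`. -/
theorem result :
    ∀ (G : Type u) [Group G] (n : ℕ) (S : Fin n → G), Subgroup.closure (Set.range S) = ⊤ →
      DecidableWordProblem S →
        ∃ (K : Type) (_ : Group K), FinPres K ∧ IsSimpleGroup K ∧
          (∃ ψ : G →* K, Function.Injective ψ) ∧ Infinite K ∧
          Kazhdan.{v} K ∧ FixHilbert.{v} K ∧ FW.{v} K ∧ FixTree.{v} K ∧
          (∃ t : K, orderOf t = 2 ∧ ∀ h : K, Wd (IsConj t) 7 h) ∧
          ∀ g : K, g ≠ 1 → ∀ h : K, Wd (fun s => IsConj g s ∨ IsConj g⁻¹ s) 14 h :=
  fun _ _ _ S hS => main S hS

end Vale.Agent.Results.P193.A0Kazhdan
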