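import Vale.Agent.N193.Main

namespace Vale.Agent.Results.P193.A0Modular

universe u

/-- A refinement of the Boone-Higman embedding (which itself is in the starting files): the finitely
presented simple group can be chosen generated by an element of order two and an element of order
three, and mixed identity free: every nontrivial element of the free product of `K` with a free
group of finite rank stays nontrivial under some substitution of elements of `K` for the free
generators. -/
theorem result :
    ∀ {n : ℕ} {G : Type u} [Group G] (f : Fin n → G),
      Subgroup.closure (Set.range f) = ⊤ →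
      (ComputablePred fun w : List (Fin n × Bool) => FreeGroup.lift f (FreeGroup.mk w) = 1) →
      ∃ (K : Type) (_ : Group K), IsSimpleGroup K ∧ Group.IsFinitelyPresented K ∧
        (∃ ψ : G →* K, Function.Injective ψ) ∧
        (∃ a b : K, orderOf a = 2 ∧ orderOf b = 3 ∧ Subgroup.closure {a, b} = ⊤) ∧
        ∀ (k : ℕ) (w : Monoid.Coprod K (FreeGroup (Fin k))), w ≠ 1 →
          ∃ x : Fin k → K, Monoid.Coprod.lift (MonoidHom.id K) (FreeGroup.lift x) w ≠ 1 :=
  fun f hf hdec => Vale.Agent.N193.strong f hdec hf

end Vale.Agent.Results.P193.A0Modular
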